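import Mathlib

/-! P281 (helper124): sub mean value inequality for `‖f‖ ^ p`, `p > 0`, `f` holomorphic. -/

open MeasureTheory Filter Topology Metric Set
open scoped ENNReal NNReal

namespace Vale.Agent.P281.H124

/-- **Sub mean value inequality** on the unit circle. -/
theorem rpow_le_circle {g : ℂ → ℂ} (hg : AnalyticOnNhd ℂ g (closedBall 0 1)) {p : ℝ}
    (hp : 0 < p) : ENNReal.ofReal (2 * Real.pi) * ‖g 0‖ₑ ^ p ≤
      ∫⁻ θ in Set.Ioc (0 : ℝ) (2 * Real.pi), ‖g (circleMap 0 1 θ)‖ₑ ^ p := by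
  have hpi : (0 : ℝ) < 2 * Real.pi := by positivity
  by_cases h0 : g 0 = 0
  · rw [h0, enorm_zero, ENNReal.zero_rpow_of_pos hp, mul_zero]
    exact zero_le
  have hg' : AnalyticOnNhd ℂ g (closedBall 0 |1|) := by rwa [abs_one]
  -- log-average
  have hJ : Real.log ‖g 0‖ ≤ Real.circleAverage (Real.log ‖g ·‖) 0 1 := by
    rw [hg'.circleAverage_log_norm one_ne_zero h0]
    have : 0 ≤ ∑ᶠ u, MeromorphicOn.divisor g (closedBall 0 |1|) u *
        Real.log (1 * ‖0 - u‖⁻¹) := by
      refine finsum_nonneg fun u => ?_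
      by_cases hu : u ∈ closedBall (0 : ℂ) |1|
      · refine mul_nonneg ?_ ?_
        · have h : (0 : ℤ) ≤ MeromorphicOn.divisor g (closedBall 0 |1|) u :=
            MeromorphicOn.AnalyticOnNhd.divisor_nonneg hg' u
          exact_mod_cast h
        · rw [one_mul, zero_sub, norm_neg]
          by_cases hu0 : u = 0
          · simp [hu0]
          · refine Real.log_nonneg ?_
            rw [one_le_inv₀ (norm_pos_iff.2 hu0)]
            rw [abs_one, mem_closedBall_zero_iff] at hu
            exact hu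
      · rw [Function.locallyFinsuppWithin.apply_eq_zero_of_notMem _ hu]
        simp
    linarith
  -- Jensen's inequality
  set μ : Measure ℝ := volume.restrict (Set.Ioc (0 : ℝ) (2 * Real.pi)) with hμ
  have hci : CircleIntegrable (Real.log ‖g ·‖) 0 1 :=
    (hg'.mono (by rw [abs_one]; exact sphere_subset_closedBall)).meromorphicOn.circleIntegrable_log_norm
  have hfi : Integrable (fun θ => p * Real.log ‖g (circleMap 0 1 θ)‖) μ := by
    have h1 := hci
    rw [CircleIntegrable, intervalIntegrable_iff_integrableOn_Ioc_of_le hpi.le] at h1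
    exact h1.const_mul p
  have hcont : ContinuousOn (fun θ : ℝ => g (circleMap 0 1 θ)) univ := by
    refine hg.continuousOn.comp (continuous_circleMap 0 1).continuousOn fun θ _ => ?_
    simp [circleMap]
  have hcont' : Continuous (fun θ : ℝ => g (circleMap 0 1 θ)) := continuousOn_univ.1 hcont
  obtain ⟨C, hC⟩ : ∃ C, ∀ θ : ℝ, ‖g (circleMap 0 1 θ)‖ ≤ C := by
    obtain ⟨C, hC⟩ := (isCompact_closedBall (0 : ℂ) 1).exists_bound_of_continuousOn hg.continuousOn
    exact ⟨C, fun θ => hC _ (by simp [circleMap])⟩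
  have hae : ∀ᵐ θ ∂μ, g (circleMap 0 1 θ) ≠ 0 := by
    have h1 : (g ⁻¹' {0})ᶜ ∈ codiscreteWithin (closedBall (0 : ℂ) 1) := by
      refine hg.preimage_zero_mem_codiscreteWithin (x := 0) h0 (by simp) ?_
      exact (convex_closedBall (0 : ℂ) 1).isConnected ⟨0, by simp⟩
    have h2 : (g ⁻¹' {0})ᶜ ∈ codiscreteWithin (sphere (0 : ℂ) |1|) := by
      refine codiscreteWithin_mono ?_ h1
      rw [abs_one]; exact sphere_subset_closedBall
    have h3 := circleMap_preimage_codiscrete (R := 1) one_ne_zero h2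
    exact ae_restrict_le_codiscreteWithin (μ := volume) measurableSet_Ioc
      (codiscreteWithin_mono (subset_univ _) h3)
  have hgi : Integrable (Real.exp ∘ fun θ => p * Real.log ‖g (circleMap 0 1 θ)‖) μ := by
    have hm : Measurable (Real.exp ∘ fun θ => p * Real.log ‖g (circleMap 0 1 θ)‖) :=
      Real.measurable_exp.comp
        ((Real.measurable_log.comp hcont'.measurable.norm).const_mul p)
    refine Integrable.of_bound hm.aestronglyMeasurable (C ^ p) ?_
    filter_upwards [hae] with θ hθ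
    have hpos : 0 < ‖g (circleMap 0 1 θ)‖ := norm_pos_iff.2 hθ
    rw [Function.comp_apply, Real.norm_eq_abs, abs_of_pos (Real.exp_pos _), mul_comm,
      ← Real.rpow_def_of_pos hpos]
    exact Real.rpow_le_rpow hpos.le (hC θ) hp.le
  have : IsFiniteMeasure μ := by
    rw [hμ]; infer_instance
  have : NeZero μ := by
    refine ⟨fun h => ?_⟩
    have := congrArg (fun ν : Measure ℝ => ν univ) h
    simp [hμ] at this
    exact absurd this (not_le.2 Real.pi_pos)
  have hJen := convexOn_exp.map_average_le (μ := μ) Real.continuous_exp.continuousOn isClosed_univ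
    (Eventually.of_forall fun _ => mem_univ _) hfi hgi
  have hav : ⨍ θ, p * Real.log ‖g (circleMap 0 1 θ)‖ ∂μ =
      p * Real.circleAverage (Real.log ‖g ·‖) 0 1 := by
    rw [average_eq, integral_const_mul, Real.circleAverage_def,
      intervalIntegral.integral_of_le hpi.le]
    simp [hμ, Real.pi_pos.le]
    ring
  have hpos0 : 0 < ‖g 0‖ := norm_pos_iff.2 h0
  have h5 : ‖g 0‖ ^ p ≤ ⨍ θ, Real.exp (p * Real.log ‖g (circleMap 0 1 θ)‖) ∂μ := by
    calc ‖g 0‖ ^ p = Real.exp (p * Real.log ‖g 0‖) := by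
          rw [Real.rpow_def_of_pos hpos0, mul_comm]
      _ ≤ Real.exp (p * Real.circleAverage (Real.log ‖g ·‖) 0 1) := by gcongr
      _ ≤ _ := by rw [← hav]; exact hJen
  have h6 : ⨍ θ, Real.exp (p * Real.log ‖g (circleMap 0 1 θ)‖) ∂μ =
      (2 * Real.pi)⁻¹ * ∫ θ, ‖g (circleMap 0 1 θ)‖ ^ p ∂μ := by
    rw [average_eq]
    have : μ.real univ = 2 * Real.pi := by simp [hμ, Real.pi_pos.le]
    rw [this, smul_eq_mul]
    congr 1
    refine integral_congr_ae ?_
    filter_upwards [hae] with θ hθ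
    rw [mul_comm, ← Real.rpow_def_of_pos (norm_pos_iff.2 hθ)]
  rw [h6] at h5
  have h7 : 2 * Real.pi * ‖g 0‖ ^ p ≤ ∫ θ, ‖g (circleMap 0 1 θ)‖ ^ p ∂μ := by
    have := mul_le_mul_of_nonneg_left h5 hpi.le
    rwa [← mul_assoc, mul_inv_cancel₀ hpi.ne', one_mul] at this
  have h8 : ENNReal.ofReal (∫ θ, ‖g (circleMap 0 1 θ)‖ ^ p ∂μ) ≤
      ∫⁻ θ, ‖g (circleMap 0 1 θ)‖ₑ ^ p ∂μ := by
    refine (ENNReal.ofReal_le_ofReal (le_abs_self _)).trans ?_
    rw [← Real.norm_eq_abs, ofReal_norm]
    refine (enorm_integral_le_lintegral_enorm _).trans (le_of_eq ?_)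
    refine lintegral_congr fun θ => ?_
    rw [Real.enorm_rpow_of_nonneg (norm_nonneg _) hp.le, enorm_norm]
  refine le_trans ?_ h8
  refine le_trans (le_of_eq ?_) (ENNReal.ofReal_le_ofReal h7)
  rw [ENNReal.ofReal_mul hpi.le]
  congr 1
  rw [← ENNReal.ofReal_rpow_of_nonneg (norm_nonneg _) hp.le, ofReal_norm]

/-- The real determinant of a complex linear map. -/
theorem abs_det_real {W : Type*} [NormedAddCommGroup W] [NormedSpace ℂ W] (L : W →L[ℂ] W) :
    |(L.restrictScalars ℝ).det| = ‖L.det‖ ^ 2 := by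
  have h1 : (L.restrictScalars ℝ).det = Algebra.norm ℝ (L.det) := by
    have := LinearMap.det_restrictScalars (R := ℝ) (S := ℂ) (f := (L : W →ₗ[ℂ] W))
    exact this
  rw [h1, Algebra.norm_complex_apply, Complex.normSq_eq_norm_sq, abs_of_nonneg (sq_nonneg _)]

section Ball

variable {V : Type*} [NormedAddCommGroup V] [NormedSpace ℂ V] [FiniteDimensional ℂ V]
  [MeasurableSpace V] [BorelSpace V] (μ : Measure V) [μ.IsAddHaarMeasure]

/-- Multiplication by a unit complex number preserves Haar measure. -/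
theorem lintegral_unit (c : ℂ) (hc : ‖c‖ = 1) (f : V → ℝ≥0∞) :
    ∫⁻ v, f (c • v) ∂μ = ∫⁻ v, f v ∂μ := by
  have hc0 : c ≠ 0 := by
    intro h
    rw [h, norm_zero] at hc
    exact zero_ne_one hc
  have : FiniteDimensional ℝ V := FiniteDimensional.complexToReal V
  let L : V →L[ℂ] V := c • ContinuousLinearMap.id ℂ V
  have hL : |(L.restrictScalars ℝ).det| = 1 := by
    rw [abs_det_real]
    have : L.det = c ^ Module.finrank ℂ V := by
      change LinearMap.det (c • (LinearMap.id : V →ₗ[ℂ] V)) = _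
      rw [LinearMap.det_smul, LinearMap.det_id, mul_one]
    rw [this, norm_pow, hc, one_pow, one_pow]
  have hd : LinearMap.det ((L.restrictScalars ℝ : V →L[ℝ] V) : V →ₗ[ℝ] V) ≠ 0 := by
    intro h
    have h1 : (L.restrictScalars ℝ).det = 0 := h
    rw [h1, abs_zero] at hL
    exact zero_ne_one hL
  have hmap := Measure.map_linearMap_addHaar_eq_smul_addHaar μ hd
  have h2 : |(LinearMap.det ((L.restrictScalars ℝ : V →L[ℝ] V) : V →ₗ[ℝ] V))⁻¹| = 1 := by
    rw [abs_inv]
    have : |LinearMap.det ((L.restrictScalars ℝ : V →L[ℝ] V) : V →ₗ[ℝ] V)| = 1 := hL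
    rw [this, inv_one]
  rw [h2, ENNReal.ofReal_one, one_smul] at hmap
  have hmp : MeasurePreserving (fun v : V => c • v) μ μ :=
    ⟨(continuous_const_smul c).measurable, hmap⟩
  exact hmp.lintegral_comp_emb (Homeomorph.smulOfNeZero c hc0).measurableEmbedding f

/-- **Sub mean value inequality on balls.** -/
theorem rpow_mul_volume_le {f : V → ℂ} {z : V} {r : ℝ} (hf : DifferentiableOn ℂ f (ball z r))
    {p : ℝ} (hp : 0 < p) : ‖f z‖ₑ ^ p * μ (ball z r) ≤ ∫⁻ w in ball z r, ‖f w‖ₑ ^ p ∂μ := by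
  have hpi : (0 : ℝ) < 2 * Real.pi := by positivity
  have : FiniteDimensional ℝ V := FiniteDimensional.complexToReal V
  have hvol : μ (ball z r) = μ (ball (0 : V) r) := Measure.addHaar_ball_center _ _ _
  set S : Set V := ball 0 r with hS
  have hSm : MeasurableSet S := measurableSet_ball
  let g : V → ℝ≥0∞ := S.indicator fun v => ‖f (z + v)‖ₑ ^ p
  have hgm : Measurable g := by
    have h1 : ContinuousOn (fun v => ‖f (z + v)‖ₑ ^ p) S := by
      have h2 : ContinuousOn (fun v => ‖f (z + v)‖ₑ) S := by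
        refine (hf.continuousOn.comp (by fun_prop) fun v hv => ?_).enorm
        rw [hS, mem_ball_zero_iff] at hv
        rw [mem_ball, dist_eq_norm, add_sub_cancel_left]; exact hv
      exact ENNReal.continuous_rpow_const.comp_continuousOn h2
    classical
    have h2 := h1.measurable_piecewise (g := (0 : V → ℝ≥0∞)) continuousOn_const hSm
    rwa [Set.piecewise_eq_indicator] at h2
  have htrans : ∫⁻ w in ball z r, ‖f w‖ₑ ^ p ∂μ = ∫⁻ v, g v ∂μ := by
    rw [← lintegral_indicator measurableSet_ball,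
      ← lintegral_add_left_eq_self _ z]
    apply lintegral_congr
    intro v
    by_cases hv : v ∈ S
    · have h2 : z + v ∈ ball z r := by
        rw [hS, mem_ball_zero_iff] at hv
        rw [mem_ball, dist_eq_norm, add_sub_cancel_left]; exact hv
      rw [Set.indicator_of_mem h2]
      exact (Set.indicator_of_mem hv (fun v => ‖f (z + v)‖ₑ ^ p)).symm
    · have h2 : z + v ∉ ball z r := by
        rw [hS, mem_ball_zero_iff] at hv
        rw [mem_ball, dist_eq_norm, add_sub_cancel_left]; exact hv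
      rw [Set.indicator_of_notMem h2]
      exact (Set.indicator_of_notMem hv _).symm
  have hrot : ∀ θ : ℝ, ∫⁻ v, g (circleMap 0 1 θ • v) ∂μ = ∫⁻ v, g v ∂μ := fun θ =>
    lintegral_unit μ _ (by simp) g
  have h1 : ∀ v, S.indicator (fun _ => ENNReal.ofReal (2 * Real.pi) * ‖f z‖ₑ ^ p) v ≤
      ∫⁻ θ in Set.Ioc (0 : ℝ) (2 * Real.pi), g (circleMap 0 1 θ • v) := by
    intro v
    by_cases hv : v ∈ S
    · rw [Set.indicator_of_mem hv]
      have hv' : ‖v‖ < r := by rwa [hS, mem_ball_zero_iff] at hv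
      have hd : AnalyticOnNhd ℂ (fun t : ℂ => f (z + t • v)) (closedBall 0 1) := by
        have hO : IsOpen {t : ℂ | z + t • v ∈ ball z r} :=
          isOpen_ball.preimage (by fun_prop)
        have h3 : DifferentiableOn ℂ (fun t : ℂ => f (z + t • v))
            {t : ℂ | z + t • v ∈ ball z r} := hf.comp (by fun_prop) fun t ht => ht
        refine (h3.analyticOnNhd hO).mono fun t ht => ?_
        rw [mem_closedBall_zero_iff] at ht
        rw [Set.mem_ofPred_eq, mem_ball, dist_eq_norm, add_sub_cancel_left, norm_smul]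
        calc ‖t‖ * ‖v‖ ≤ 1 * ‖v‖ := by gcongr
          _ < r := by rwa [one_mul]
      have h4 := rpow_le_circle hd hp
      rw [zero_smul, add_zero] at h4
      refine h4.trans (le_of_eq ?_)
      apply lintegral_congr
      intro θ
      have h2 : circleMap 0 1 θ • v ∈ S := by
        rw [hS, mem_ball_zero_iff, norm_smul]
        simpa using hv'
      exact (Set.indicator_of_mem h2 (fun v => ‖f (z + v)‖ₑ ^ p)).symm
    · rw [Set.indicator_of_notMem hv]
      exact zero_le
  have h2 : ∫⁻ v, S.indicator (fun _ => ENNReal.ofReal (2 * Real.pi) * ‖f z‖ₑ ^ p) v ∂μ ≤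
      ∫⁻ v, (∫⁻ θ in Set.Ioc (0 : ℝ) (2 * Real.pi), g (circleMap 0 1 θ • v)) ∂μ :=
    lintegral_mono h1
  rw [lintegral_indicator hSm, setLIntegral_const] at h2
  have hmeas : Measurable (Function.uncurry fun (v : V) (θ : ℝ) =>
      g (circleMap 0 1 θ • v)) := by
    apply hgm.comp
    apply Continuous.measurable
    exact ((continuous_circleMap 0 1).comp continuous_snd).smul continuous_fst
  rw [lintegral_lintegral_swap hmeas.aemeasurable] at h2
  simp_rw [hrot] at h2
  rw [setLIntegral_const, Real.volume_Ioc, sub_zero] at h2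
  rw [htrans, hvol]
  have h3 : ENNReal.ofReal (2 * Real.pi) * (‖f z‖ₑ ^ p * μ S) ≤
      ENNReal.ofReal (2 * Real.pi) * ∫⁻ v, g v ∂μ := by
    rw [← mul_assoc]
    refine h2.trans (le_of_eq (mul_comm _ _))
  exact (ENNReal.mul_le_mul_iff_right (by simpa using hpi) ENNReal.ofReal_ne_top).1 h3

end Ball

end Vale.Agent.P281.H124
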