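import Vale.Agent.P281.Bdl.B1
import Vale.Agent.P281.H124.Mean

/-! P281 (helper124): the volume bound for pluricanonical forms on compact manifolds. -/

open scoped Manifold ContDiff Topology ENNReal
open Set Filter Metric MeasureTheory

universe u

namespace Vale.Agent.P281.H124

section Form

variable (E₀ : Type) [NormedAddCommGroup E₀] [NormedSpace ℂ E₀] {F : Type u} [TopologicalSpace F]
  [ChartedSpace E₀ F]

/-- Holomorphic `m`-canonical forms, recorded by their values on the standard frame. -/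
def IsForm (m : ℕ) (s : F → ℂ) : Prop :=
  ∀ p, ∃ a : F → ℂ, HolAt E₀ a p ∧ ∀ᶠ z in 𝓝 p, s z = a z * jac E₀ (chartAt E₀ p) z ^ m

end Form

theorem setLIntegral_biUnion_le {α ι : Type*} [MeasurableSpace α] (μ : Measure α) (T : Finset ι)
    (S : ι → Set α) (f : α → ℝ≥0∞) :
    ∫⁻ w in ⋃ p ∈ T, S p, f w ∂μ ≤ ∑ p ∈ T, ∫⁻ w in S p, f w ∂μ := by
  classical
  induction T using Finset.induction_on with
  | empty => simp
  | insert a T ha ih =>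
    rw [Finset.set_biUnion_insert, Finset.sum_insert ha]
    exact (lintegral_union_le f _ _).trans (add_le_add le_rfl ih)

section Vol

set_option linter.unusedSectionVars false

variable {E₀ : Type} [NormedAddCommGroup E₀] [NormedSpace ℂ E₀] [FiniteDimensional ℂ E₀]
  {F : Type u} [TopologicalSpace F] [ChartedSpace E₀ F] [IsManifold 𝓘(ℂ, E₀) ω F]

/-- the value of the form `Q^* s` on the standard frame -/
noncomputable def pb (m : ℕ) (s : F → ℂ) (Q : E₀ → F) (w : E₀) : ℂ :=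
  s (Q w) * ContinuousLinearMap.det (mfderiv 𝓘(ℂ, E₀) 𝓘(ℂ, E₀) Q w : E₀ →L[ℂ] E₀) ^ m

/-- local form of the pull back -/
theorem pb_local {m : ℕ} {s : F → ℂ} {p : F} {a : F → ℂ} {Q : E₀ → F} {w : E₀}
    (hQ : ContMDiffAt 𝓘(ℂ, E₀) 𝓘(ℂ, E₀) ω Q w) (hp : Q w ∈ (chartAt E₀ p).source)
    (hs : s (Q w) = a (Q w) * jac E₀ (chartAt E₀ p) (Q w) ^ m) :
    pb m s Q w = a (Q w) * (fderiv ℂ (fun u => chartAt E₀ p (Q u)) w).det ^ m := by
  unfold pb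
  rw [hs, mul_assoc, ← mul_pow]
  congr 2
  have h1 : mfderiv 𝓘(ℂ, E₀) 𝓘(ℂ, E₀) (fun u => chartAt E₀ p (Q u)) w =
      (mfderiv 𝓘(ℂ, E₀) 𝓘(ℂ, E₀) (chartAt E₀ p) (Q w)).comp (mfderiv 𝓘(ℂ, E₀) 𝓘(ℂ, E₀) Q w) :=
    mfderiv_comp w (HolV.chart hp).mdiff (hQ.mdifferentiableAt (by simp))
  rw [mfderiv_eq_fderiv] at h1
  rw [h1]
  exact (clm_det_comp (V := E₀) (mfderiv 𝓘(ℂ, E₀) 𝓘(ℂ, E₀) (chartAt E₀ p) (Q w))
    (mfderiv 𝓘(ℂ, E₀) 𝓘(ℂ, E₀) Q w)).symm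

theorem contDiffAt_chart {p : F} {Q : E₀ → F} {w : E₀}
    (hQ : ContMDiffAt 𝓘(ℂ, E₀) 𝓘(ℂ, E₀) ω Q w) (hp : Q w ∈ (chartAt E₀ p).source) :
    ContDiffAt ℂ ω (fun u => chartAt E₀ p (Q u)) w :=
  contMDiffAt_iff_contDiffAt.1 (ContMDiffAt.comp w (HolV.chart hp) hQ)

/-- the pull back is holomorphic -/
theorem pb_contDiffAt {m : ℕ} {s : F → ℂ} (hs : IsForm E₀ m s) {Q : E₀ → F} {w : E₀}
    (hQ : ContMDiffAt 𝓘(ℂ, E₀) 𝓘(ℂ, E₀) ω Q w) : ContDiffAt ℂ ω (pb m s Q) w := by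
  obtain ⟨a, ha, hae⟩ := hs (Q w)
  have h1 : ContDiffAt ℂ ω (fun u => a (Q u)) w :=
    contMDiffAt_iff_contDiffAt.1 (ContMDiffAt.comp w ha hQ)
  have h2 := contDiffAt_chart hQ (mem_chart_source E₀ (Q w))
  have h3 : ContDiffAt ℂ ω (fun u => (fderiv ℂ (fun u => chartAt E₀ (Q w) (Q u)) u).det) w :=
    contDiff_det.contDiffAt.comp w (h2.fderiv_right (m := ω) (by simp))
  refine (h1.mul (h3.pow m)).congr_of_eventuallyEq ?_
  have h4 : ∀ᶠ u in 𝓝 w, ContMDiffAt 𝓘(ℂ, E₀) 𝓘(ℂ, E₀) ω Q u :=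
    (contMDiffAt_iff_contMDiffAt_nhds (by simp)).1 hQ
  filter_upwards [h4, hQ.continuousAt.eventually hae,
    hQ.continuousAt.eventually ((chartAt E₀ (Q w)).open_source.mem_nhds
      (mem_chart_source E₀ (Q w)))] with u h5 h6 h7
  exact pb_local h5 h7 h6

/-- **Volume bound.** -/
theorem lintegral_pb_le [MeasurableSpace E₀] [BorelSpace E₀] (μ : Measure E₀)
    [μ.IsAddHaarMeasure] [CompactSpace F] {m : ℕ} (hm : 0 < m) {s : F → ℂ} (hs : IsForm E₀ m s) :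
    ∃ M : ℝ≥0∞, M ≠ ⊤ ∧ ∀ (Q : E₀ → F) (v : E₀) (r : ℝ),
      (∀ w ∈ ball v r, ContMDiffAt 𝓘(ℂ, E₀) 𝓘(ℂ, E₀) ω Q w) → InjOn Q (ball v r) →
      ∫⁻ w in ball v r, ‖pb m s Q w‖ₑ ^ (2 / (m : ℝ)) ∂μ ≤ M := by
  classical
  have hfd : FiniteDimensional ℝ E₀ := FiniteDimensional.complexToReal E₀
  have hp0 : (0 : ℝ) < 2 / m := by positivity
  -- good neighbourhoods
  have hloc : ∀ p : F, ∃ (O : Set F) (a : F → ℂ) (C : ℝ≥0∞), IsOpen O ∧ p ∈ O ∧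
      O ⊆ (chartAt E₀ p).source ∧ C ≠ ⊤ ∧ (∀ z ∈ O, ‖a z‖ₑ ≤ C) ∧
      (∀ z ∈ O, s z = a z * jac E₀ (chartAt E₀ p) z ^ m) ∧
      chartAt E₀ p '' O ⊆ ball (chartAt E₀ p p) 1 := by
    intro p
    obtain ⟨a, ha, hae⟩ := hs p
    have h1 : ∀ᶠ z in 𝓝 p, ‖a z‖ < ‖a p‖ + 1 :=
      (HolV.continuousAt ha).norm.eventually_lt continuousAt_const (by simp)
    have h2 : ∀ᶠ z in 𝓝 p, z ∈ (chartAt E₀ p).source :=
      (chartAt E₀ p).open_source.mem_nhds (mem_chart_source E₀ p)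
    have h3 : ∀ᶠ z in 𝓝 p, chartAt E₀ p z ∈ ball (chartAt E₀ p p) 1 :=
      ((chartAt E₀ p).continuousAt (mem_chart_source E₀ p)).eventually
        (ball_mem_nhds _ one_pos)
    obtain ⟨O, hO, hOo, hpO⟩ := eventually_nhds_iff.1 (((h1.and h2).and h3).and hae)
    refine ⟨O, a, ENNReal.ofReal (‖a p‖ + 1), hOo, hpO, fun z hz => (hO z hz).1.1.2,
      ENNReal.ofReal_ne_top, fun z hz => ?_, fun z hz => (hO z hz).2, ?_⟩
    · rw [← ofReal_norm]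
      exact ENNReal.ofReal_le_ofReal (hO z hz).1.1.1.le
    · rintro _ ⟨z, hz, rfl⟩
      exact (hO z hz).1.2
  choose O a C hOo hpO hOs hC haC hsO hO1 using hloc
  obtain ⟨T, hT⟩ := isCompact_univ.elim_finite_subcover O hOo fun p _ =>
    mem_iUnion.2 ⟨p, hpO p⟩
  refine ⟨∑ p ∈ T, C p ^ (2 / (m : ℝ)) * μ (ball (chartAt E₀ p p) 1), ?_, ?_⟩
  · refine (ENNReal.sum_lt_top.2 fun p _ => ?_).ne
    exact ENNReal.mul_lt_top (ENNReal.rpow_lt_top_of_nonneg hp0.le (hC p)) measure_ball_lt_top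
  intro Q v r hQ hinj
  have hQc : ContinuousOn Q (ball v r) := fun w hw => (hQ w hw).continuousAt.continuousWithinAt
  have hcover : ball v r ⊆ ⋃ p ∈ T, (ball v r ∩ Q ⁻¹' O p) := by
    intro w hw
    obtain ⟨p, hpT, hp⟩ := mem_iUnion₂.1 (hT (mem_univ (Q w)))
    exact mem_iUnion₂.2 ⟨p, hpT, hw, hp⟩
  have hmeas : ∀ p, MeasurableSet (ball v r ∩ Q ⁻¹' O p) := fun p =>
    (hQc.isOpen_inter_preimage isOpen_ball (hOo p)).measurableSet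
  calc ∫⁻ w in ball v r, ‖pb m s Q w‖ₑ ^ (2 / (m : ℝ)) ∂μ
      ≤ ∫⁻ w in ⋃ p ∈ T, (ball v r ∩ Q ⁻¹' O p), ‖pb m s Q w‖ₑ ^ (2 / (m : ℝ)) ∂μ :=
        lintegral_mono_set hcover
    _ ≤ ∑ p ∈ T, ∫⁻ w in ball v r ∩ Q ⁻¹' O p, ‖pb m s Q w‖ₑ ^ (2 / (m : ℝ)) ∂μ :=
        setLIntegral_biUnion_le μ T _ _
    _ ≤ _ := Finset.sum_le_sum fun p _ => ?_
  set ψ : E₀ → E₀ := fun u => chartAt E₀ p (Q u) with hψ
  have hd : ∀ w ∈ ball v r ∩ Q ⁻¹' O p, DifferentiableAt ℂ ψ w := fun w hw =>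
    (contDiffAt_chart (hQ w hw.1) (hOs p hw.2)).differentiableAt (by simp)
  have h1 : ∀ w ∈ ball v r ∩ Q ⁻¹' O p, ‖pb m s Q w‖ₑ ^ (2 / (m : ℝ)) ≤
      C p ^ (2 / (m : ℝ)) * ENNReal.ofReal |((fderiv ℂ ψ w).restrictScalars ℝ).det| := by
    intro w hw
    rw [pb_local (hQ w hw.1) (hOs p hw.2) (hsO p _ hw.2), abs_det_real, enorm_mul, enorm_pow,
      ENNReal.mul_rpow_of_nonneg _ _ hp0.le]
    gcongr
    · exact haC p _ hw.2
    · rw [← ENNReal.rpow_natCast, ← ENNReal.rpow_mul]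
      have : (m : ℝ) * (2 / m) = (2 : ℕ) := by
        have : (m : ℝ) ≠ 0 := by positivity
        field_simp
        norm_num
      rw [this, ENNReal.rpow_natCast, ENNReal.ofReal_pow (norm_nonneg _), ofReal_norm]
  calc ∫⁻ w in ball v r ∩ Q ⁻¹' O p, ‖pb m s Q w‖ₑ ^ (2 / (m : ℝ)) ∂μ
      ≤ ∫⁻ w in ball v r ∩ Q ⁻¹' O p, C p ^ (2 / (m : ℝ)) *
          ENNReal.ofReal |((fderiv ℂ ψ w).restrictScalars ℝ).det| ∂μ :=
        setLIntegral_mono' (hmeas p) h1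
    _ = C p ^ (2 / (m : ℝ)) * ∫⁻ w in ball v r ∩ Q ⁻¹' O p,
          ENNReal.ofReal |((fderiv ℂ ψ w).restrictScalars ℝ).det| ∂μ :=
        lintegral_const_mul' _ _ (ENNReal.rpow_ne_top_of_nonneg hp0.le (hC p))
    _ = C p ^ (2 / (m : ℝ)) * μ (ψ '' (ball v r ∩ Q ⁻¹' O p)) := by
        congr 1
        refine lintegral_abs_det_fderiv_eq_addHaar_image μ (hmeas p)
          (f' := fun w => (fderiv ℂ ψ w).restrictScalars ℝ) (fun w hw => ?_) ?_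
        · exact ((hd w hw).hasFDerivAt.restrictScalars ℝ).hasFDerivWithinAt
        · intro w hw w' hw' h
          exact hinj hw.1 hw'.1 ((chartAt E₀ p).injOn (hOs p hw.2) (hOs p hw'.2) h)
    _ ≤ _ := by
        gcongr
        rintro _ ⟨w, hw, rfl⟩
        exact hO1 p ⟨Q w, hw.2, rfl⟩

/-- **Pointwise bound.** -/
theorem pb_bound [CompactSpace F] {m : ℕ} (hm : 0 < m) {s : F → ℂ} (hs : IsForm E₀ m s) {r : ℝ}
    (hr : 0 < r) : ∃ C : ℝ, ∀ (Q : E₀ → F) (v : E₀),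
      (∀ w ∈ ball v r, ContMDiffAt 𝓘(ℂ, E₀) 𝓘(ℂ, E₀) ω Q w) → InjOn Q (ball v r) →
      ‖pb m s Q v‖ ≤ C := by
  have hfd : FiniteDimensional ℝ E₀ := FiniteDimensional.complexToReal E₀
  let _ : MeasurableSpace E₀ := borel E₀
  have : BorelSpace E₀ := ⟨rfl⟩
  let μ : Measure E₀ := Measure.addHaar
  obtain ⟨M, hM, hb⟩ := lintegral_pb_le μ hm hs
  have hp0 : (0 : ℝ) < 2 / m := by positivity
  set N : ℝ≥0∞ := (M / μ (ball 0 r)) ^ ((m : ℝ) / 2) with hN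
  have hball : μ (ball (0 : E₀) r) ≠ 0 := (measure_ball_pos μ 0 hr).ne'
  have hball' : μ (ball (0 : E₀) r) ≠ ⊤ := measure_ball_lt_top.ne
  have hNt : N ≠ ⊤ := ENNReal.rpow_ne_top_of_nonneg (by positivity) (ENNReal.div_ne_top hM hball)
  refine ⟨N.toReal, fun Q v hQ hinj => ?_⟩
  have h1 := rpow_mul_volume_le μ (f := pb m s Q) (z := v) (r := r)
    (fun w hw => ((pb_contDiffAt hs (hQ w hw)).differentiableAt (by simp)).differentiableWithinAt)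
    hp0
  have h2 := h1.trans (hb Q v r hQ hinj)
  have h3 : μ (ball v r) = μ (ball (0 : E₀) r) := Measure.addHaar_ball_center _ _ _
  rw [h3, ← ENNReal.le_div_iff_mul_le (Or.inl hball) (Or.inl hball')] at h2
  have h4 := ENNReal.rpow_le_rpow h2 (z := (m : ℝ) / 2) (by positivity)
  rw [← ENNReal.rpow_mul] at h4
  have h5 : 2 / (m : ℝ) * (m / 2) = 1 := by
    have : (m : ℝ) ≠ 0 := by positivity
    field_simp
  rw [h5, ENNReal.rpow_one] at h4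
  have h6 := ENNReal.toReal_mono hNt h4
  rwa [toReal_enorm] at h6

end Vol

end Vale.Agent.P281.H124
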